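import Vale.Agent.P032.Words5.H819.Chk2

/-!
# Pentagon words: the pattern AADFD
-/

namespace Vale.Agent.P032.Words.Pent

def QAADFD : PT2 where
  n := 49
  m := 0
  LB := 0x180c06013098c060300984c5e2f180c06013098c0262f17830180c170b8182e170b8180c060b85c2e170b426130f078603009830182e17060582c160ac542c160a8582c158c060300984c6013180c06013098c060300984c601306030182e170305c2e17030180c170b85c2e060b8302c160b0582a160b0582a160b0582c160605829160b0522c160b060301804c2630098a05030180c02613140a060301804c260c060305c2e170b8180c060b85c2e170305c131384c3c1e180c0260c060b85c2c160605826148b05826148b05812090484a250909444220904824251288844221104824121289444221088442241208442211209042240908c4422110482425110844224090884422110844221108844221090482425128884412090484a25110884422090482425128484a221108442211209042241088442241204844221108842211088442211084840221108824121288842211207c3e1f0f0783e1f0f87c3c1e0f0303a1d0f87c381f0e07c3c1e0f06c261f0f030341d0d07430181606058180c86432181606032181606432190c0b0302c0c064322c0c86460130b87860130f0305c0c170303e1f0f06058180c8b03212128484412128884422108902c15110882a221108842160f87c281f0a0783c130f8783e1f0f8783c1f0e07c381f0f078261f0f0605818160b0302c0c864582c0c0b0322c16064321816060582c0c0b03219160b03219160b0302c0c8944a12128884a25110884a25110544622110944415110884a25110944a22110944a1212888222211044402211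094441f0f8503e1f0a0783c1e0804c3e1e0603c1c0e0787c3e1f0f8783c1e060381c1f0f87c3c1e0c060581816064322c0c864301816060302c0c86432181606432190c0b030191804c3c30098343c0c17030182e0f87c3c180c0b0322c0c8484a2211088242509088422405844442211084161111088120904824140a05028140904824140a04020100804824120905028140a05020100804020100804020120904828140a0502010080180c06070380c06030181c0e070300c0e050282408040402010080402010090482814080400c06070281412080402010080402010080180c06030180c060601824120905028140a04020100904824120a05028140a04020100804020100804024120904828140a0502812090482814080402010030180c06070381c04030380c06030381c02010482010080402010080402006030180c04030180c06010082400000402010080402010090482814080400c0607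
  CL := [0x1000000000000400000000000100000000000040000000000010000000000004000000000001000000000000400000000000100000000000040000000000010000000000004000000000001000000000000400000000000100000000000040000000000010000000000004000000000001000000000000400000000000100000000000040000000000010000000000004000000000001000000000000400000000000100000000000040000000000010000000000004000000000001000000000000400000000000100000000000040000000000010000000000004000000000001000000000000400000000000100000000000040000000000010000000000004000000000001000000000000400000000000100000000000040000000000010000000000004000000000001]
  TY := 0xdb6ff6dffdb6ff7dbffffdbfff6

theorem q1AADFD : QAADFD.chk1 = true := by decide +kernel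

theorem q2AADFD : QAADFD.chk2 = true := by decide +kernel

end Vale.Agent.P032.Words.Pent
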