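import Vale.Agent.P032.Words5.H819.Chk2

/-!
# Pentagon words: the pattern AAFBF
-/

namespace Vale.Agent.P032.Words.Pent

def QAAFBF : PT2 where
  n := 14
  m := 1
  LB := 0x6030180c06030180c06030180c06030180c06030180c06030180c06030180c06030180c06030180c060341a0d06834180c06030180c060341a0d05834180c05830180b06830180c06030180c06030180c06030180c06030180c06030180c06030180c06030180c06030180c060301a0d0682c160c0602c160c0602c140a04824120c05030180a06028180c06030180c06030180c06030180c06030180c06030180c06030180c06030180c06030180c06030180904824120906030180c06030180a04824120906028180906028180c06030180c06030180c06030180c06030180804030180c06030100806030180c06030180c06030180c04824120904030180c04030180c04824120804030180c06030180c06030180c0601c0e0c06030180c0381c180c06030180c06030180c06030180c06030180c06030180c060340e0706834180c06030180c060341a0706834180c0601c180c0600c06030180c06030180c06030181806030180c06030180c0603018180c03018180c030300c06030180c06030180c06060300c06060300c060301828060a0180c060a0180c180c02814180c0283018050601406030180c140301828060c060140a0c060141008060300a030182006030402018050180c06030180c06040180c06030180c06030180c06030180c0c030180c06030182c060b0180c0c0b0182c06060580c06030500c14030180c060305010060305010060a01830180506014180c02820180c0400c12030403010030182018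0c0383018070103018020600806070180c1a07018300e030180c06030180c06030201006030201006030200c06030180c06030200c06030180c06030180c16030580c060b0180c06030180c06030180c06040200c060302010060306030040c06008040c06008040c0180c06030182c060b01830180703808180c01008180c0100c0e070183004030380c06030180c06030180c06040200c06030201006030180c06030180c06030181008030180402010080406030180c06030180402010180c06030180c06030180c06030200c060c0600804020603004020080402030180c06010080c060306030040c0600804010080402010180c06030180c06040180c06030180c06030000000030180c06030180c0603000000000000180c030180c06030180c06030180c0c060180c06060300c06030180c06030180c0c030180c06030180c180c02800000000000180c0281406030180c0c030180c060c060140a0500000000c060140a030180c06000000c0603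
  CL := [0x8001000200040008001000200040008001000200040008001,
    0x7623ff7c963258762322cc8b1c0b462dc0bbffd18b41f107c]
  TY := 0xdb6ff6dfedb6ff7db7ffec3efc6

theorem q1AAFBF : QAAFBF.chk1 = true := by decide +kernel

theorem q2AAFBF : QAAFBF.chk2 = true := by decide +kernel

end Vale.Agent.P032.Words.Pent
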