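import Vale.Agent.P032.Words5.H819.Chk2

/-!
# Pentagon words: the pattern AEAEE
-/

namespace Vale.Agent.P032.Words.Pent

def QAEAEE : PT2 where
  n := 23
  m := 3
  LB := 0xa05028140a05028140a05026130a05028140a04c26130985028140a05026130984c28140a0502813098582c160b0582a150a8542a15090582c160b0582a150a8542a150885028140a05026130a05028140a05028140a05026130a05028140a04c26130985028140a05026130984c2c160b0582c150a85424150a8542c160b0582c150a8542a150a84428140a05028130984c26140a05028140984c28140a05028140a05028140984c28140a05028130984c26160b0582c160a8542a150a85422160b0582c160a8542a120a8542a140a05028140984c26130a05028140a04c26130985028140a05026130a05028140a05028140a05026130b0582c160b0542a15090542a150b0582c160b0542a150a8542a110a05028140a04c26140a05028140984c26130a05028140a04c26130985028140a05026130a05028140a0582c160b0582a150a8482a150a8582c160b0582a150a8442a150a8241209048241210048241209080381008048402009080241209080381c08040381c0807820121008024200904824200e07020100e07020100d04840121004824120e04020180c0582c180c05830180b0382c140a05028020a05018060c0602c160c0602c160206030160a05028140a05014080004824200908024120e040201209048241209080242009048241c08040242009080401210048241c0e0403c100e07020100908024201004840120907038100807038100d04030180b0382c180c0582c180c05828020a05018060a05028180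c05830180b05830180b0102c140a050280a0a05010000904840121008024200907038100807038100806824120908024200907020100904824120904824200908024120e04020120908024201004840120e070201e0807038100806030160c0602c160c0602c160205028140a05014140400030180b0382c180c0582c180c05828140105018060a05028120904840121008024200e07020100f070381008048241210048402009080381c08040381c0804034120904824200908038100804824120904824120908024200907020100c0602c160706030160b06030160a05028020601828140a06030160c0602c160c0602c160205028140a050280a0400024120904840121007020100908024120908024201007038100f040381c08040242009048242009080401c0e040201a0e070201009080241209048401c0804024120904824180c05830180b0382c180c0582c1401050280c0305028140c0602c160206030160c0602c160a050280a0400028140a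
  CL := [0x1000001000001000001000001000001000001000001000001000001000001000001000001000001000001000001000001000001000001000001000001000001000001,
    0x180088b00282810002c0109a000034000000a2220282000281400a0801000d400011a0008ac0828000a20910300081400208200205000001a0020600208200000d00,
    0x180088b00282810002c0109a000034000000a2220282000281400a0801000d400011a0008ac0828000a20910300081400208200205000001a0020600208200000d00,
    0x1a41003428001600d4d030005803d8b007b4145000144f68544000513da85800103a0104340005115814d002c01ba5a83503511596a0d401455e5803743511580a2af,
    0x180088b00282810002c0109a000034000000a2220282000281400a0801000d400011a0008ac0828000a20910300081400208200205000001a0020600208200000d00,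
    0x1a41003428001600d4d030005803d8b007b4145000144f68544000513da85800103a0104340005115814d002c01ba5a83503511596a0d401455e5803743511580a2af,
    0x1a41003428001600d4d030005803d8b007b4145000144f68544000513da85800103a0104340005115814d002c01ba5a83503511596a0d401455e5803743511580a2af,
    0x5a8bfcb507b6858002c01ffa570034ae0006a27bc2ba005a8bff0ae8016a0dd2d45fe1a8abe0a68000a2ffd0ba01a564034a68069590092ba01a174034a680495d00]
  TY := 0xc8f1d6dfe3b6fffdb71fedbeff6

theorem q1AEAEE : QAEAEE.chk1 = true := by decide +kernel

theorem q2AEAEE : QAEAEE.chk2 = true := by decide +kernel

end Vale.Agent.P032.Words.Pent
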