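import Vale.Agent.P032.Words5.H819.Chk2

/-!
# Pentagon words: the pattern CFDFF
-/

namespace Vale.Agent.P032.Words.Pent

def QCFDFF : PT2 where
  n := 38
  m := 2
  LB := 0x110881a0d06888440d0683444240301846231188c460a128180c231188c46231188c0c061188c46231182c160b11090440d0681846231182c160b058901a0d068341a0d12088440d06834440d110881a0d068180c231188c46230301846231188c4623118180c231188c46230308c160b0582c1a0d068341a0d06834160b058881a2206834180b0582c4221100804021100844221108804020108843e1f0d068341f0f868341a0d0683e1f0d068341a0d07c341a0407810080f87c341f0f86834190c8742e1d0e85c2e1d0e06432211088040201088042211088440201008442210a07c3e1a0d06810120f87c341a0d07c3e1a0d0683e1a0407810080407c3e1a0407c3e1a0402010080907c3e1a0f87c341f1088440201008442211088040201088442140f87c341a0d06834080907c3e1a0d068341a0f87c341a0d0681008040483e1f0d0683e1f0d06c3621108504220100843e1a0d068341209048341a0d04824120906834130c86432190c86030180c05c2e180c0582c160b05432190c86432180c06030170b86030170b86030180c86432190c06030170c06040200a05040200a068341a0d04c34120906432180c05c30201005028201005028140d06826120904824120904834130d06834120f048241a0d048341a0904824190c86432180c0602e180c06432190c86430170c0602e170c05c30170b86030190c86432190c05c30180b85c30180c86432190c08040141005040200a050341a090483c120906824120904840200a08040140a068341a0d04834120906c36140a08028010083c22110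804422110003c02110003c020107804021108844221100004020e07088442207038162206888440d110881c0e05888440d1108844220688844220602c1c2211034440611810140611810082307038440e0702c440d110844021108843e1a048203e1a0482410080407c1207108840201088442211088442200000042211000000201008042211088442211088000001008000001000001c0e110884422110180806070384422110381c2211088442206038440603010140a03018080403018080e070884406020381c22030180806030100806030100c0607038440e07088440c070040211088442211000040201008042211088442211000040201008000201000381c0e110884422110884405110884406020100c0e070384422110880a22110381c22110884405110180804020100c04020181c0e070880a22070384402018080402000040200008040001088442200008384422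
  CL := [0x8000000001000000000200000000040000000008000000001000000000200000000040000000008000000001000000000200000000040000000008000000001000000000200000000040000000008000000001000000000200000000040000000008000000001000000000200000000040000000008000000001000000000200000000040000000008000000001000000000200000000040000000008000000001000000000200000000040000000008000000001,
    0x4000001002400000000201000810162102746416004004003040020000a10000100004010000104000000002000100000100002009ce4c82020016012000403040000000800800000420000000012000002000400000010800000005120100100018000804000800000100400004020040023402002000410000000000800800240000000000100002002000400000020000800c80000011100000002000000004200000000904000000080010090044000000042,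
    0x2000000000000002800800000a1406000020401e80000010200902008084000050400004010008000004000800000000008002000006040002003d010000002b400000405000080002800000000400000010108000400005000000450e0000000014040c000020000000000000c0020008927400008080000000041602001000000000005000000000480e00200000000010000c800014400002008000800004600040000000020010000000100b0808080029000,
    0x201000a140f02802840f61a10f1cdfa3b77df75fd669d5b5fa694292e3ed850555c2071601021e00508500284000141001e11a00abdfdeeb5b773ff32ac864ffe69407c3d9180a0007846802100e5000007e72e200c081c580408defff830719147f8d4c400060103001819014c60fc2ead3fcb749f1f0e80002053f43d018388e80002053001819014c7f50f0046100801204beb502ff753c0a00a102c8602f6c20c1240800078014214037393f7e4ce9407d642]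
  TY := 0xdb6c76dffdb0ff71b7dfed8fff6

theorem q1CFDFF : QCFDFF.chk1 = true := by decide +kernel

theorem q2CFDFF : QCFDFF.chk2 = true := by decide +kernel

end Vale.Agent.P032.Words.Pent
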