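import Vale.Agent.P032.Words5.H819.Chk2

/-!
# Pentagon words: the pattern DDFDF
-/

namespace Vale.Agent.P032.Words.Pent

def QDDFDF : PT2 where
  n := 34
  m := 0
  LB := 0x28141a0d028140808040140808030541e0f0303c1e15078182a0f078181e0f078180a05068340a0d02820100d020200a0d068141a0d06820100d028201a0d02820100504014241d0e8140a05108802613108780e1f0f8783e1f0f01c3e1f0f07c3e1f0f014241d0e8143a050281426130e8700a1d0e8140a13098843e1b0f0844221098843c1f0f07c34190a050341a0d06832180887c3e180c044201f0f87c20100f87c3e100f84034190a05034140d06834100c06030110807c20100f840201f0806030180c07c30180807c201a0c850281a0d06834190c0443e1f0c06022110f8403e1f0f8403e1f0807c3e1f0806832140a068341a0c06030110f8403e100f8403e100d06832170f8403e1f0d064281a028141a0d028140a05020201005028100808030541e0f0303c1e15078182a0f078181e0f028141a0d0283c0a160a83c0c150783c0a05068201005020200a0d068140a0d0687c3e110887c3e1f0a064321f0f85028190984c261d0e8482413098743a12090743a1d0e8482613098743a120904c261d0e84824130984826130f87c3e1f088443e1f0887c28140c8643e1f0885028140a0643e110887c3e110887c22140a064321f0f8443e1f0a05032110887c32190f87c28190f84020180c0603e100f87c1e0e0d0681e08040341a05028201a050282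0100d068340a05028201a05028140a0806014101f0f84020100c060301f05860301f0f8403e1f0f850341a0d0683e180c0283e100f86030180f8403e1a0d03c1a05028200a090403c0c0f0783c1e1a078201005040340a070f07842211088442070f0780e070f0780e1e0f0540c05028140a15030540c04028140a04020140a05028140805028100e1e0f0844221108840e211088442070f0780e07028140806030542a06030540c06020140804028140805020140a05028100c060a8540c060a8540a050a8182a04028100e1e1088442211081c0e1e0381c0e070f01c0e1e0a8180a05028140a150a8182a15030140606028140805028140a04020140a05020140a050201c3c211088442070f01c0e060a8542a15030542a06028140a04028100805028100a040f01c0e1e0381c3c05090080a05020140a070f084421e0387c3e11088443e1f0f87c3e1f0f85032190c87c3e1f0087c3e1f0a06428140c84c261d0904824130984c241d0904824120e87424130987424120984c3a120907c3e110887c241d0901c3e1f0f800241d0e84826130e8483a120f87c22190a06432190f87c3e190a050321f08844221f0f87c2211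
  CL := [0x8000000010000000020000000040000000080000000100000000200000000400000000800000001000000002000000004000000008000000010000000020000000040000000080000000100000000200000000400000000800000001000000002000000004000000008000000010000000020000000040000000080000000100000000200000000400000000800000001]
  TY := 0xdb6db6ffedf7ff7fb7dfedf6ffe

theorem q1DDFDF : QDDFDF.chk1 = true := by decide +kernel

theorem q2DDFDF : QDDFDF.chk2 = true := by decide +kernel

end Vale.Agent.P032.Words.Pent
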